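import Vale.Agent.P287Q.Hb.PV
import Vale.Agent.P287Q.Cub.Defs
import Vale.Agent.P287Q.Int.Defs
import Vale.Agent.P269.Ch.Chern

/-!
# Line bundles on a projective surface are algebraic: the statements
-/

namespace Vale.Agent.P287T.Gl

open Set MvPolynomial P291Z P269 P269.Ch P287Q P287Q.Cub
open P287Q.Zc (Lk)

variable {ν : ℕ} {I J : Type} [Fintype I] [Fintype J]

/-- the variety of a cone -/
abbrev SZ (Z : Set (Fin ν → ℂ)) : Type := Spc (π₀ (Fin ν)) Z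

/-- the hyperplane class -/
noncomputable abbrev hZ (Z : Set (Fin ν → ℂ)) : H (SZ Z) :=
  Tq.lcq (scl (π₀ (Fin ν))) Z fun t => t ()

/-- the integral -/
noncomputable abbrev JZ (Z : Set (Fin ν → ℂ)) : H (SZ Z) →ₗ[ℂ] ℂ :=
  Loc.intg (Tq.fnd (scl (π₀ (Fin ν))) Z)

/-- a matrix of forms of degree `n` which has rank one at all points of `Z` -/
structure Rk1 (Z : Set (Fin ν → ℂ)) (n : ℕ) (f : Matrix I J (MvPolynomial (Fin ν) ℂ)) : Prop where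
  hom : ∀ i j, (f i j).IsHomogeneous n
  rk : ∀ z ∈ Z, ∃ (s : I → ℂ) (t : J → ℂ), s ≠ 0 ∧ t ≠ 0 ∧ ∀ i j, eval z (f i j) = s i * t j

/-- If maps `A j : E → E'` of line bundles have the same linear relations as the columns of `f`,
then `c₁(E') - c₁(E) = c`. -/
def Cls (Z : Set (Fin ν → ℂ)) (f : Matrix I J (MvPolynomial (Fin ν) ℂ)) (c : H (SZ Z)) : Prop :=
  ∀ (Y : Ch.Sp) (a : C(Y.X, SZ Z)) (E E' : VB Y) (A : J → Y.T → E.W →ₗ[ℂ] E'.W), E.r = 1 →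
    E'.r = 1 → (∀ j, Hom (Mor.id Y) E E' (A j)) →
    (∀ t, ∃ z : Z, a (Y.π t) = Quo.mk _ z ∧ ∀ u : J → ℂ,
      (∀ w ∈ E.F t, ∑ j, u j • A j t w = 0) ↔ ∀ i, ∑ j, eval z.1 (f i j) * u j = 0) →
    E'.eu.1 - E.eu.1 = H.map a c

/-- **GAGA-L**: integral classes orthogonal to the classes of type `(2, 0)` are algebraic. -/
def StGl : Prop := ∀ (ν : ℕ) (Z : Set (Fin ν → ℂ)), PV (π₀ (Fin ν)) Z 2 → IsConnected Z →
  ∀ l ∈ Lk (SZ Z) 2, (∀ w ∈ Hb.QT (scl (π₀ (Fin ν))) Z 2 0, JZ Z (l * w) = 0) →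
    ∃ (a b n k : ℕ) (f : Matrix (Fin a) (Fin b) (MvPolynomial (Fin ν) ℂ)),
      Rk1 Z n f ∧ Cls Z f (l + (k : ℂ) • hZ Z)

/-- The row of the coordinates. -/
def StGy : Prop := ∀ (ν n : ℕ) (Z : Set (Fin ν → ℂ)), PV (π₀ (Fin ν)) Z n →
  Rk1 Z 1 (Matrix.of fun (_ : Fin 1) j => X j) ∧ Cls Z (Matrix.of fun (_ : Fin 1) j => X j) (hZ Z)

end Vale.Agent.P287T.Gl
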