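import Vale.Agent.P287T.Gl.St
import Vale.Agent.P287Q.D.C1Mul

/-!
# The class of a line bundle from the relations of its sections
-/

namespace Vale.Agent.P287T.Gl

open Set Function Filter Topology P291Z P269 P269.Ch P287Q P287Q.D

theorem prop_of_ker {J : Type} [Fintype J] {α τ : J → ℂ} {k : J} (hk : τ k ≠ 0)
    (h : ∀ u : J → ℂ, ∑ j, u j * α j = 0 ↔ ∑ j, τ j * u j = 0) :
    α k ≠ 0 ∧ ∀ j, α j = α k / τ k * τ j := by
  classical
  refine ⟨fun e => hk ?_, fun j => ?_⟩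
  · simpa [Pi.single_apply] using (h (Pi.single k 1)).1 (by simpa [Pi.single_apply] using e)
  · have := (h (Pi.single j (τ k) - Pi.single k (τ j))).2 (by
      simp [Pi.single_apply, mul_sub, Finset.sum_sub_distrib, mul_comm])
    simp only [Pi.sub_apply, sub_mul, Finset.sum_sub_distrib, Pi.single_apply, ite_mul, zero_mul,
      Finset.sum_ite_eq', Finset.mem_univ, if_true] at this
    field_simp
    linear_combination this

theorem cont_coef {T W : Type} [TopologicalSpace T] [NormedAddCommGroup W] [NormedSpace ℂ W]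
    {α : T → ℂ} {v : T → W} (hv : Continuous v) (h0 : ∀ t, v t ≠ 0)
    (h : Continuous fun t => α t • v t) : Continuous α := by
  refine continuous_iff_continuousAt.2 fun t => ?_
  obtain ⟨l, -, hl⟩ := exists_dual_vector ℂ (v t) (norm_ne_zero_iff.2 (h0 t))
  have h1 : l (v t) ≠ 0 := by
    rw [hl]
    exact RCLike.ofReal_ne_zero.2 (norm_ne_zero_iff.2 (h0 t))
  have h2 : Continuous fun s => l (v s) := l.continuous.comp hv
  refine (((l.continuous.comp h).continuousAt (x := t)).div h2.continuousAt h1).congr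
    ((h2.continuousAt.eventually_ne h1).mono fun s hs => ?_)
  simp only [Pi.div_apply, comp_apply, map_smul, smul_eq_mul, mul_div_cancel_right₀ _ hs]

/-- A frame of a line bundle. -/
structure Ln {Y : Ch.Sp} (E : VB Y) (χ : Y.G →ₜ* ℂˣ) (v : Y.T → E.W) : Prop where
  cont : Continuous v
  eqv : ∀ (g : Y.G) t, g • v t = (χ g : ℂ) • v (g • t)
  ne : ∀ t, v t ≠ 0
  mem : ∀ t w, w ∈ E.F t ↔ ∃ α : ℂ, α • v t = w
  eu : E.eu = c1 χ

theorem exists_ln {Y : Ch.Sp} {E : VB Y} (hE : E.r = 1) {χ : Fin E.r → Y.G →ₜ* ℂˣ}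
    {v : Fin E.r → Y.T → E.W} (h : Fr E χ v) : ∃ χ' v', Ln E χ' v' := by
  let i : Fin E.r := ⟨0, by omega⟩
  have hi : ∀ j : Fin E.r, j = i := fun j => Fin.ext (by have := j.2; simp only [i]; omega)
  refine ⟨χ i, v i, h.cont i, h.eqv i, fun t => (h.li t).ne_zero i, fun t w => ?_, ?_⟩
  · rw [← h.span t, show (range fun j => v j t) = {v i t} from
      (range_eq_iff _ _).2 ⟨fun j => by rw [hi j]; rfl, fun b hb => ⟨i, hb.symm⟩⟩,
      Submodule.mem_span_singleton]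
  · rw [h.eu, Finset.prod_eq_single i (fun j _ hj => absurd (hi j) hj) (by simp)]

/-- **The class lemma.** -/
theorem cls_gen {X J : Type} [TopologicalSpace X] [Fintype J] {φ : X → X → ℂ} {c : H X}
    (h : IsC1 φ c) (h1 : ∀ x, φ x x ≠ 0) (τ : J → X → ℂ)
    (hτ : ∀ j x, ContinuousAt (fun y => τ j y / φ x y) x) (h0 : ∀ x, ∃ j, τ j x ≠ 0)
    (Y : Ch.Sp) (a : C(Y.X, X)) (E E' : VB Y) (A : J → Y.T → E.W →ₗ[ℂ] E'.W) (hE : E.r = 1)
    (hE' : E'.r = 1) (hA : ∀ j, Hom (Mor.id Y) E E' (A j))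
    (hr : ∀ t (u : J → ℂ), (∀ w ∈ E.F t, ∑ j, u j • A j t w = 0) ↔
      ∑ j, τ j (a (Y.π t)) * u j = 0) : E'.eu.1 - E.eu.1 = H.map a c := by
  obtain ⟨Y₁, m₁, i₁, ⟨χ₁, v₁, f₁⟩, χ₂, v₂, f₂⟩ := exists_fr₂ E E'
  obtain ⟨Y₂, m₂, i₂, ψ, F, r1, r2, r3, r4⟩ := C1M.exists_rep h Y₁ (a.comp m₁.map)
  obtain ⟨χ, v, hv⟩ := exists_ln (E := (E.pb m₁).pb m₂) hE (f₁.pb m₂)
  obtain ⟨χ', v', hv'⟩ := exists_ln (E := (E'.pb m₁).pb m₂) hE' (f₂.pb m₂)
  let p : Y₂.T → Y.T := fun t => m₁.f (m₂.f t)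
  have hp : Continuous p := m₁.cf.comp m₂.cf
  let x : Y₂.T → X := fun t => a (Y.π (p t))
  have hx : Continuous x := a.continuous.comp (Y.cont.comp hp)
  have ex : ∀ t, ((a.comp m₁.map).comp m₂.map) (Y₂.π t) = x t := fun t => by
    simp only [ContinuousMap.comp_apply, Mor.map_π, x, p]
  have pe : ∀ (g : Y₂.G) t, p (g • t) = m₁.ρ (m₂.ρ g) • p t := fun g t => by
    simp only [p, m₂.eqv, m₁.eqv]
  have xe : ∀ (g : Y₂.G) t, x (g • t) = x t := fun g t => by simp only [x, pe, Y.π_smul]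
  let w : Y₂.T → E.W := v
  let w' : Y₂.T → E'.W := v'
  have vm : ∀ t, w t ∈ E.F (p t) := fun t => (hv.mem t _).2 ⟨1, one_smul _ _⟩
  have e1 : ∀ j t, ∃ α : ℂ, α • w' t = A j (p t) (w t) := fun j t =>
    (hv'.mem t _).1 ((hA j).mem _ _ (vm t))
  choose α hα using e1
  have ca : ∀ j, Continuous (α j) := fun j => cont_coef (v := w') hv'.cont hv'.ne (by
    simp only [hα]
    exact (hA j).continuous hp hv.cont vm)
  have ea : ∀ j (g : Y₂.G) t, (χ g : ℂ) * α j (g • t) = α j t * χ' g := fun j g t => by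
    have k1 : m₁.ρ (m₂.ρ g) • w t = (χ g : ℂ) • w (g • t) := hv.eqv g t
    have k2 : m₁.ρ (m₂.ρ g) • w' t = (χ' g : ℂ) • w' (g • t) := hv'.eqv g t
    have k3 : A j (m₁.ρ (m₂.ρ g) • p t) (m₁.ρ (m₂.ρ g) • w t) =
      m₁.ρ (m₂.ρ g) • A j (p t) (w t) := (hA j).eqv _ _ _ (vm t)
    rw [k1, map_smul, ← pe, ← hα, ← hα, smul_comm (m₁.ρ (m₂.ρ g)), k2, smul_smul,
      smul_smul] at k3
    exact smul_left_injective ℂ (hv'.ne _) k3
  have ka : ∀ t (u : J → ℂ), ∑ j, u j * α j t = 0 ↔ ∑ j, τ j (x t) * u j = 0 := fun t u => by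
    have k1 : ∑ j, u j • A j (p t) (w t) = (∑ j, u j * α j t) • w' t := by
      simp only [← hα, smul_smul, Finset.sum_smul]
    refine Iff.trans ⟨fun e z hz => ?_, fun e => ?_⟩ (hr (p t) u)
    · obtain ⟨β, rfl⟩ : ∃ β : ℂ, β • w t = z := (hv.mem t z).1 hz
      simp only [map_smul, smul_comm _ β, ← Finset.smul_sum, k1, e, zero_smul, smul_zero]
    · have := e _ (vm t)
      rw [k1] at this
      exact (smul_eq_zero.1 this).resolve_right (hv'.ne t)
  choose k hk using h0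
  let s : Y₂.T → ℂ := fun t => α (k (x t)) t / τ (k (x t)) (x t)
  have s2 := fun t =>
    prop_of_ker (τ := fun j => τ j (x t)) (α := fun j => α j t) (hk (x t)) (ka t)
  have s0 : ∀ t, s t ≠ 0 := fun t => div_ne_zero (s2 t).1 (hk _)
  have s1 : ∀ t j, α j t = s t * τ j (x t) := fun t => (s2 t).2
  have key : c1 (χ' / (χ * ψ)) = 0 := by
    refine VB.IsSec.eu_eq_zero (E := char (χ' / (χ * ψ))) (s := fun t => (s t / F t : ℂ))
      ⟨fun _ => trivial, continuous_iff_continuousAt.2 fun t => ?_, fun g t => ?_⟩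
      fun t => div_ne_zero (s0 t) (r2 t)
    · have c0 : ContinuousAt (fun t' => τ (k (x t)) (x t') / φ (x t) (x t')) t :=
        ContinuousAt.comp (f := x) (hτ (k (x t)) (x t)) hx.continuousAt
      have c1 : ContinuousAt (fun t' => F t' * φ (x t) (x t')) t := by simpa only [ex] using r4 t
      have n0 : τ (k (x t)) (x t) / φ (x t) (x t) ≠ 0 := div_ne_zero (hk _) (h1 _)
      refine ((((ca (k (x t))).continuousAt.div c0 n0)).div c1
        (mul_ne_zero (r2 t) (h1 _))).congr ((c0.eventually_ne n0).mono fun t' ht => ?_)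
      have e2 := (div_ne_zero_iff.1 ht).1
      have e3 := (div_ne_zero_iff.1 ht).2
      have e4 := r2 t'
      simp only [Pi.div_apply, s1 t' (k (x t))]
      field_simp
    · show s (g • t) / F (g • t) = ((χ' g / (χ g * ψ g) : ℂˣ) : ℂ) * (s t / F t)
      have e2 := ea (k (x t)) g t
      rw [s1 (g • t), s1 t, xe] at e2
      have e3 : (χ g : ℂ) * s (g • t) = s t * χ' g :=
        mul_right_cancel₀ (hk (x t)) (by linear_combination e2)
      rw [r3, Units.val_div_eq_div_val, Units.val_mul]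
      have e4 := Units.ne_zero (χ g)
      have e5 := Units.ne_zero (ψ g)
      have e6 := r2 t
      field_simp
      linear_combination e3
  rw [c1_div, c1_mul, sub_eq_zero, ← hv.eu, ← hv'.eu, VB.eu_pb, VB.eu_pb, VB.eu_pb,
    VB.eu_pb] at key
  refine i₁ (i₂ ?_)
  rw [map_sub, map_sub, H.map_map _ a, H.map_map _ (a.comp _), r1, sub_eq_iff_eq_add']
  exact congrArg Subtype.val key

end Vale.Agent.P287T.Gl
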