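import Vale.Agent.P287Q.D.SB
import Vale.Agent.P287T.Kd.KodA
import Vale.Agent.P280Z.Ma.UpA

/-!
# Twists of a line bundle by a positive line bundle are generated by sections
-/

set_option linter.unusedSectionVars false

namespace Vale.Agent.P287T.Gl

open Set Function Filter Topology Metric P267.FL P287Q.D P272.K P285.H281.FD P280Z.Ma.Up
open P281Z (Pos)
open _root_.Vale.Agent.P277Z (at_chart trans_an)
open scoped ContDiff Manifold ComplexOrder

section peak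

open P272.KOD P299.H800.KOD

theorem peak_all {n : ℕ} {X : Type} [TopologicalSpace X] [ChartedSpace (Cm n) X]
    [IsManifold 𝓘(ℂ, Cm n) ω X] [T2Space X] [CompactSpace X] {L : P299.H800.KOD.ALB n X}
    {φ : Chart n X → Cm n → ℝ} (hφ : P299.H800.KOD.IsMetric L φ)
    (hpos : ∀ e x, At e x → (cHess (φ e) (e x)).PosDef) (x : X) :
    ∀ᶠ m in atTop, P299.H800.KOD.JetAt L m x := by
  obtain ⟨D⟩ := P299.H800.KOD.Key.data (P299.H800.KOD.key n X L φ hφ hpos)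
  obtain ⟨i, hx, hxV⟩ := D.cov x
  have hat : At (D.e i) x := ⟨D.atl i, hx⟩
  obtain ⟨h, a, A, R, N⟩ := exists_NF ((hφ.smooth (D.e i) x hat).of_le two_le_infty)
    (hpos _ x hat)
  obtain ⟨r, hr, hrR, hrV, -⟩ := exists_radius (D.isOpen i) (subset_closure.trans (D.sub i)) hx hxV
    isOpen_univ (mem_univ x) N.R_pos
  obtain ⟨K, s, hK, hs⟩ := P299.H800.KOD.exists_approx hφ D i N hr hrR hrV
  have ha := N.a_pos
  obtain ⟨ρ, hρ, hρr, -, hjet⟩ := N.jet (δ := a * r ^ 2 / 4) (ρ₀ := r / 2) (by positivity)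
    (by positivity)
  obtain ⟨m₁, hm₁⟩ := hjet K hK
  have hball : ball (D.e i x) ρ ⊆ ball (D.e i x) (r / 2) := ball_subset_ball hρr
  have hbt : ball (D.e i x) ρ ⊆ (D.e i).target := fun z hz =>
    D.sub i (subset_closure (hrV (ball_subset_closedBall
      (ball_subset_ball (by linarith) (hball hz)))))
  filter_upwards [eventually_ge_atTop D.m₀, eventually_ge_atTop m₁] with m h0 h1
  exact ⟨s m, D.e i, hat, hm₁ _ h1 (fun q => (s m q).coeff (D.e i))
    (fun q => P299.H800.KOD.PSec.differentiableOn _ (D.atl i) hbt)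
    fun q => (nrm_mono hball _).trans (hs _ h0 q).1⟩

end peak

section lb

variable {n : ℕ} {X : Type} [TopologicalSpace X] [ChartedSpace (Cm n) X] {L L' : Bd X}

theorem lb_mul (h : IsLB n L) (h' : IsLB n L') : IsLB n (L.mul L') where
  isOpen i := (h.isOpen i.1).inter (h'.isOpen i.2)
  cover x := let ⟨i, a⟩ := h.cover x; let ⟨j, b⟩ := h'.cover x; ⟨(i, j), a, b⟩
  holo _ _ e x he a b := (h.holo _ _ e x he a.1 b.1).mul (h'.holo _ _ e x he a.2 b.2)
  ne_zero _ _ x a b := mul_ne_zero (h.ne_zero _ _ x a.1 b.1) (h'.ne_zero _ _ x a.2 b.2)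
  cocycle _ _ _ x a b c := (mul_mul_mul_comm _ _ _ _).trans
    (congrArg₂ (· * ·) (h.cocycle _ _ _ x a.1 b.1 c.1) (h'.cocycle _ _ _ x a.2 b.2 c.2))

theorem lb_pow (h : IsLB n L) (k : ℕ) : IsLB n (L.pow k) where
  isOpen := h.isOpen
  cover := h.cover
  holo _ _ e x he a b := (h.holo _ _ e x he a b).pow k
  ne_zero _ _ x a b := pow_ne_zero k (h.ne_zero _ _ x a b)
  cocycle _ _ _ x a b c := (mul_pow _ _ _).symm.trans (congrArg (· ^ k) (h.cocycle _ _ _ x a b c))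

variable [IsManifold 𝓘(ℂ, Cm n) ω X] [T2Space X] [CompactSpace X]

theorem ex_met (h : IsLB n L) : ∃ ψ, IsMet n L ψ :=
  (glue P281Z.holM_id L.U h.isOpen h.cover (fun a i x => Real.log (‖L.g i a x‖ ^ 2))
    (fun _ _ _ e ha hi he => ⟨(lg_sm h he hi ha).1, fun _ hv k =>
      absurd (P281Z.tr_inj he he ((k e he).trans (map_zero _).symm)) hv⟩) fun a i j x ha hi hj => by
      rw [← h.cocycle i j a x hi hj ha, norm_mul, mul_pow, add_comm, Real.log_mul
        (pow_ne_zero _ (norm_ne_zero_iff.2 (h.ne_zero _ _ x hi hj)))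
        (pow_ne_zero _ (norm_ne_zero_iff.2 (h.ne_zero _ _ x hj ha)))]).imp fun _ k => k.1

theorem ex_pos (h : IsLB n L) (h' : IsLB n L') (hP : Pos n L') :
    ∃ c : ℕ, Pos n (L.mul (L'.pow c)) := by
  obtain ⟨ψ, hψ⟩ := ex_met h
  obtain ⟨φ, h1, h2⟩ := hP
  have k := fun m (e : Chart n X) x he hm =>
    (pd_iff ((h1.smooth m e x he hm).of_le P284Y.Lib.two_le_inf)).1 (h2 m e x he hm)
  refine big h h' hψ h1 (fun m e x he hm v => ?_) fun _ m e x he _ hm v hv h0 =>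
    absurd h0 (k m e x he hm v hv).ne'
  by_cases hv : v = 0
  · rw [hv, Lv, levi_zero]
  · exact (k m e x he hm v hv).le

attribute [local instance] Kd.tpT Kd.t2T Kd.csT Kd.mfT Kd.cpT in
open Kd in
theorem ex_sec (h : IsLB n L) (hP : Pos n L) {i : L.ι} {x : X} (hi : x ∈ L.U i) :
    ∀ᶠ m in atTop, ∃ s, IsSec n (L.pow m) s ∧ s i x ≠ 0 := by
  obtain ⟨ψ, h1, h2⟩ := hP
  refine (peak_all (isMetric_met h h1) (met_pos h h2) x).mono fun m ⟨s, e, he, k, _⟩ =>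
    ⟨_, isSec_trs h (s 0), ?_⟩
  obtain ⟨_, -, h3, -⟩ := jx_spec h he
  rw [trs_eq h (s 0) hi he]
  exact mul_ne_zero (pow_ne_zero _ (h.ne_zero _ _ x hi h3)) k

end lb

variable {X : Type} [TopologicalSpace X] [ChartedSpace C2 X] [IsManifold 𝓘(ℂ, C2) ω X]

theorem ho_at {V : Type} [NormedAddCommGroup V] [NormedSpace ℂ V] {f : X → V} {x : X}
    (h : Ho f x) {e : Chart 2 X} (he : At e x) : AnalyticAt ℂ (fun z => f (e.symm z)) (e x) :=
  (AnalyticAt.comp_of_eq h (trans_an (at_chart x) he) (congrArg _ he.left_inv)).congr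
    ((P281Z.at_ev he (P281Z.at_near (at_chart (n := 2) x))).mono fun _ k => congrArg f k.left_inv)

/-- The transition functions. -/
noncomputable def bd (M : SB X) : Bd X :=
  ⟨X, fun x => {y | M.Sec (M.φ x) y}, fun i j y => M.φ j y / M.φ i y⟩

theorem mem_bd (M : SB X) (x : X) : x ∈ (bd M).U x := (M.sec_φ x).self_of_nhds

theorem lb_bd (M : SB X) : IsLB 2 (bd M) where
  isOpen _ := isOpen_iff_mem_nhds.2 fun _ h => SB.Sec.eventually h
  cover x := ⟨x, mem_bd M x⟩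
  holo i _ _ x he a b := (ho_at (SB.Sec.hol_div b a (M.ne i x)) he).contDiffAt
  ne_zero i j x _ _ := div_ne_zero (M.ne j x) (M.ne i x)
  cocycle _ j _ x _ _ _ := (mul_comm _ _).trans (div_mul_div_cancel₀ (M.ne j x))

variable [T2Space X] [CompactSpace X]

theorem gen_pt (M : SB X) {O : SB X} (hO : Pos 2 (bd O)) : ∃ c : ℕ, ∀ x, ∀ᶠ m in atTop,
    ∃ s ∈ ((M * O ^ c) ^ m).Γ, s x ≠ 0 := by
  obtain ⟨c, hc⟩ := ex_pos (lb_bd M) (lb_bd O) hO
  have hL := lb_mul (lb_bd M) (lb_pow (lb_bd O) c)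
  have hm : ∀ x, x ∈ ((bd M).mul ((bd O).pow c)).U (x, x) := fun x => ⟨mem_bd M x, mem_bd O x⟩
  refine ⟨c, fun x => (ex_sec hL hc (hm x)).mono fun m ⟨s, h1, h2⟩ =>
    ⟨fun y => s (y, y) y, fun y => Ho.congr (h1.holo _ _ y (at_chart y) (hm y)).analyticAt
      (((hL.isOpen _).eventually_mem (hm y)).mono fun z hz => ?_), h2⟩⟩
  refine (h1.change _ _ z hz (hm z)).trans ?_
  show (M.φ z z / M.φ y z * (O.φ z z / O.φ y z) ^ c) ^ m * _ = _
  simp only [M.self, O.self, SB.pow_φ, SB.mul_φ, div_eq_inv_mul, mul_one, inv_pow, ← mul_inv]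

/-- **Twists are generated by finitely many sections.** -/
theorem gen (M : SB X) {O : SB X} (hO : Pos 2 (bd O)) (h : ∀ x, ∃ s ∈ O.Γ, s x ≠ 0) :
    ∃ (k b : ℕ) (t : Fin b → X → ℂ), (∀ j, t j ∈ (M * O ^ k).Γ) ∧ ∀ x, ∃ j, t j x ≠ 0 := by
  obtain ⟨c, hc⟩ := gen_pt M hO
  obtain ⟨c', hc'⟩ := gen_pt M⁻¹ hO
  let P : ℕ → X → Prop := fun k x => ∃ s ∈ (M * O ^ k).Γ, s x ≠ 0
  have up : ∀ k k' x, k ≤ k' → P k x → P k' x := fun k k' x hk ⟨s, a, b⟩ => by
    obtain ⟨d, rfl⟩ := Nat.exists_eq_add_of_le hk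
    obtain ⟨u, a', b'⟩ := h x
    exact ⟨s * u ^ d, by rw [pow_add, ← mul_assoc]; exact SB.mul_mem a (SB.pow_mem a' d),
      mul_ne_zero b (pow_ne_zero d b')⟩
  obtain ⟨k, hk⟩ : ∃ k, ∀ x ∈ univ, P k x := by
    refine isCompact_univ.induction_on (p := fun S => ∃ k, ∀ x ∈ S, P k x)
      ⟨0, fun _ h => h.elim⟩ (fun S T hST ⟨t, ht⟩ => ⟨t, fun x hx => ht x (hST hx)⟩)
      (fun S T ⟨t, ht⟩ ⟨t', ht'⟩ => ⟨max t t', fun x hx => hx.elim
        (fun k => up _ _ x (le_max_left _ _) (ht x k))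
        fun k => up _ _ x (le_max_right _ _) (ht' x k)⟩) fun x _ => ?_
    obtain ⟨m, ⟨s, a, b⟩, s', a', b'⟩ :=
      (((tendsto_add_atTop_nat 1).eventually (hc x)).and (hc' x)).exists
    have e : (M * O ^ c) ^ (m + 1) * (M⁻¹ * O ^ c') ^ m = M * O ^ (c * (m + 1) + c' * m) := by
      rw [mul_pow, mul_pow, mul_mul_mul_comm, ← pow_mul, ← pow_mul, ← pow_add, inv_pow, pow_succ',
        mul_inv_cancel_right]
    have k := e ▸ SB.mul_mem a a'
    exact ⟨_, nhdsWithin_le_nhds ((k x).ev_ne (mul_ne_zero b b')), _, fun y hy => ⟨_, k, hy⟩⟩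
  choose s h1 h2 using fun x => hk x trivial
  obtain ⟨T, -, hT⟩ := isCompact_univ.elim_nhds_subcover (fun x => {y | s x y ≠ 0})
    fun x _ => (h1 x x).ev_ne (h2 x)
  refine ⟨k, _, fun j => s (T.equivFin.symm j), fun j => h1 _, fun x => ?_⟩
  obtain ⟨y, hy, k⟩ := mem_iUnion₂.1 (hT (mem_univ x))
  exact ⟨T.equivFin ⟨y, hy⟩, by simp only [Equiv.symm_apply_apply]; exact k⟩

end Vale.Agent.P287T.Gl
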