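import Vale.Agent.P287T.Gl.Cls

/-!
# The hyperplane bundle
-/

namespace Vale.Agent.P287T.Gl

open Set Function Filter Topology MvPolynomial P291Z P269 P269.Holo P269.Mono P269.Tq P287Q P287Q.D
  P287Q.Cub

variable {ν : ℕ} {Z : Set (Fin ν → ℂ)}

/-- A point of the cone over `x`. -/
noncomputable def pt (x : SZ Z) : Fin ν → ℂ := x.out.1

theorem pt_mem (x : SZ Z) : pt x ∈ Z := x.out.2

theorem unit_c {c : ℂ} (hc : c ≠ 0) : IsUnit fun _ : Unit => c := unit_iff.2 fun _ => hc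

theorem hm_ev : Tq.Hm fun t : Unit → ℂ => t () :=
  ⟨rfl, fun _ _ _ _ => rfl, fun _ _ => (continuous_apply ()).continuousAt⟩

open Classical in
/-- The index of a coordinate that does not vanish at `x`. -/
noncomputable def ix (x : SZ Z) : (Fin ν → ℂ) → ℂ :=
  if h : ∃ j, pt x j ≠ 0 then fun y => y h.choose else 0

open Classical in
/-- The frames of the hyperplane bundle. -/
noncomputable def fr (x y : SZ Z) : ℂ :=
  if ix x (pt y) = 0 then 1 else ix x (pt y) / ix x (pt x)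

theorem fr_ne' {x : SZ Z} (hx : ix x (pt x) ≠ 0) (y : SZ Z) : fr x y ≠ 0 := by
  unfold fr
  split_ifs with h
  exacts [one_ne_zero, div_ne_zero h hx]

variable (h : MC (π₀ (Fin ν)) Z)
include h

theorem ne_zero {z : Fin ν → ℂ} (hz : z ∈ Z) : ∃ j, z j ≠ 0 := (h.sub hz ()).imp fun _ k => k.2

theorem smul_mem {c : ℂ} (hc : c ≠ 0) {z : Fin ν → ℂ} (hz : z ∈ Z) : c • z ∈ Z :=
  h.inv _ (unit_c hc) z hz

theorem mk_smul {c : ℂ} (hc : c ≠ 0) (z : Z) :
    (Quo.mk _ ⟨c • z.1, smul_mem h hc z.2⟩ : SZ Z) = Quo.mk _ z := mk_act (unit_c hc) z.2 _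

theorem exists_pt (z : Z) : ∃ c : ℂ, c ≠ 0 ∧ pt (Quo.mk _ z : SZ Z) = c • z.1 :=
  let ⟨t, ht, e⟩ := h.mk_eq_iff.1 (mk_out (Quo.mk (scl (π₀ (Fin ν))) z)).symm
  ⟨t (), unit_iff.1 ht (), e⟩

theorem exists_ix (x : SZ Z) : ∃ j, pt x j ≠ 0 ∧ ∀ y, ix x y = y j := by
  have := ne_zero h (pt_mem x)
  exact ⟨_, this.choose_spec, fun y => by rw [ix, dif_pos this]⟩

theorem ix_ne (x : SZ Z) : ix x (pt x) ≠ 0 := let ⟨_, a, b⟩ := exists_ix h x; b _ ▸ a

theorem fr_ne (x y : SZ Z) : fr x y ≠ 0 := fr_ne' (ix_ne h x) y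

theorem fr_self (x : SZ Z) : fr x x = 1 := by rw [fr, if_neg (ix_ne h x), div_self (ix_ne h x)]

theorem cont_div (i j : Fin ν) {x : SZ Z} (hx : pt x j ≠ 0) :
    ContinuousAt (fun y : SZ Z => pt y i / pt y j) x := by
  obtain ⟨z, rfl⟩ := mk_surj x
  have e : ∀ w : Z, pt (Quo.mk _ w : SZ Z) i / pt (Quo.mk _ w : SZ Z) j = w.1 i / w.1 j :=
    fun w => by
      obtain ⟨c, hc, e⟩ := exists_pt h w
      rw [e, Pi.smul_apply, Pi.smul_apply, smul_eq_mul, smul_eq_mul, mul_div_mul_left _ _ hc]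
  have c : ∀ k, ContinuousAt (fun w : Z => w.1 k) z := fun k =>
    ((continuous_apply k).comp continuous_subtype_val).continuousAt
  rw [ContinuousAt, ← h.map_mk, tendsto_map'_iff, e]
  refine ((c i).div (c j) fun k => hx ?_).tendsto.congr fun w => (e w).symm
  obtain ⟨c, -, e⟩ := exists_pt h z
  rw [e, Pi.smul_apply, k, smul_zero]

theorem ev_ne {j : Fin ν} {x : SZ Z} (hx : pt x j ≠ 0) : ∀ᶠ y : SZ Z in 𝓝 x, pt y j ≠ 0 :=
  ((cont_div h j j hx).eventually_ne (by rw [div_self hx]; exact one_ne_zero)).mono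
    fun _ k => (div_ne_zero_iff.1 k).1

theorem ev_fr (x : SZ Z) : ∃ j, pt x j ≠ 0 ∧ ∀ᶠ y in 𝓝 x, pt y j ≠ 0 ∧
    (fr x y)⁻¹ • pt y = fun i => pt y i / pt y j * pt x j := by
  obtain ⟨j, a, b⟩ := exists_ix h x
  refine ⟨j, a, (ev_ne h a).mono fun y k => ⟨k, funext fun i => ?_⟩⟩
  rw [fr, b, b, if_neg k, Pi.smul_apply, smul_eq_mul]
  field_simp

theorem cont_lf (x : SZ Z) : ∀ᶠ y in 𝓝 x, ContinuousAt (fun z => (fr x z)⁻¹ • pt z) y := by
  obtain ⟨j, -, b⟩ := ev_fr h x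
  exact b.eventually_nhds.mono fun y k => (continuousAt_pi.2 fun i =>
    (cont_div h i j k.self_of_nhds.1).mul continuousAt_const).congr (k.mono fun _ e => e.2.symm)

/-- The hyperplane class is the class of the hyperplane bundle. -/
theorem isC1_fr : IsC1 fr (hZ Z) := by
  have := isAct_scl (π₀ (Fin ν))
  have := h.fp
  refine ⟨sp (scl (π₀ (Fin ν))) Z, hm_ev.ρ, fun x y => Sp.of _ _
    (smul_mem h (inv_ne_zero (fr_ne h x y)) (pt_mem y)), .id _, fun g t => FP.free t g,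
    fun x => (cont_lf h x).mono fun _ k => Sp.isEmbedding_val.isInducing.continuousAt_iff.2 k,
    fun z => (mk_smul h (inv_ne_zero (fr_ne h z z)) z.out).trans (mk_out z),
    fun x z => ⟨(unit_c (inv_ne_zero (fr_ne h x z))).unit, Sp.ext ?_, rfl⟩,
    ((H.map_id (fun _ => rfl) _).trans (lce_val hm_ev)).symm⟩
  show (fr x z)⁻¹ • (fr z z)⁻¹ • pt z = (fr x z)⁻¹ • pt z
  rw [fr_self h, inv_one, one_smul]

omit h in
/-- **The row of the coordinates.** -/
theorem stGy : StGy := fun ν n Z h => by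
  refine ⟨⟨fun _ j => isHomogeneous_X ℂ j, fun z hz => ⟨fun _ => 1, z, one_ne_zero,
    ne_iff.2 (ne_zero h.toMC hz), fun _ j => by simp⟩⟩,
    fun Y a E E' A hE hE' hA hr => cls_gen (isC1_fr h.toMC) (fun x => fr_ne h.toMC x x)
      (fun j x => pt x j) (fun j x => ?_) (fun x => ne_zero h.toMC (pt_mem x)) Y a E E' A hE hE' hA
      fun t u => ?_⟩
  · refine (continuousAt_pi.1 (cont_lf h.toMC x).self_of_nhds j).congr (.of_forall fun y => ?_)
    simp only [Pi.smul_apply, smul_eq_mul, div_eq_inv_mul]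
  · obtain ⟨z, e, k⟩ := hr t
    obtain ⟨c, hc, e'⟩ := exists_pt h.toMC z
    rw [k, e, e']
    simp [mul_assoc, ← Finset.mul_sum, hc]

end Vale.Agent.P287T.Gl
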