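import Vale.Agent.P287T.Gl.Gy
import Vale.Agent.P287Q.D.Main1

/-!
# The Lefschetz theorem on a projective surface
-/

set_option linter.style.haveILetI false

namespace Vale.Agent.P287T.Gl

open Set Function Filter Topology P291Z P267.FL P269 P269.Holo P269.Mono P269.Tq P287Q P287Q.D
  P287Q.Cub
open P287Q.Zc (Lk)
open scoped ContDiff Manifold

theorem lef0 {X : Type} [MetricSpace X] [CompactSpace X] [ConnectedSpace X] [ChartedSpace C2 X]
    [IsManifold 𝓘(ℂ, C2) ω X] {I : H X →ₗ[ℂ] ℂ} {B : LinearMap.BilinForm ℤ (Lk X 2)}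
    (T : Sf.Top I B) {l : H X} (hl : l ∈ Lk X 2) (hw : ∀ w, Mf.IsHg 2 2 0 w → I (l * w) = 0) :
    ∃ M : SB X, IsC1 M.φ l := by
  have : Nice X := cmp_nice
  obtain ⟨A, hA⟩ := exists_lb hl
  obtain ⟨a, ha⟩ := M1.hol A fun η hη => by
    obtain ⟨w, k⟩ := Sf.cls X η hη.2
    rw [P267.BlockC.pair_comm, ← cmp_pair T hA k]
    exact hw w (((hapi X).hg20 w).2 ⟨η, hη.1, k⟩)
  obtain ⟨M, R, rfl⟩ := stRl' X A a ha
  obtain ⟨c, -, k⟩ := stC1Ex X _ M.coc
  exact ⟨M, by rwa [cmp_uniq T hA (barg X R.A _ _ c M.coc R.frs k), one_smul]⟩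

theorem isC1_mul {X : Type} [TopologicalSpace X] [Nice X] [CompactSpace X] [ChartedSpace C2 X]
    {M M' : SB X} {c c' : H X} (k : IsC1 M.φ c) (k' : IsC1 M'.φ c') :
    IsC1 (M * M').φ (c + c') := by
  obtain ⟨o, -, ko⟩ := stC1Ex X _ (M * M').coc
  rwa [← stC1Mul X _ _ _ c c' o 1 k k' ko (fun _ => one_ne_zero) fun x =>
    (continuousAt_const (y := (1 : ℂ))).congr (.of_forall fun y => by simp [M.ne x y, M'.ne x y])]

theorem isC1_pow {X : Type} [TopologicalSpace X] [Nice X] [CompactSpace X] [ChartedSpace C2 X]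
    {M : SB X} {c : H X} (k : IsC1 M.φ c) (n : ℕ) : IsC1 (M ^ n).φ ((n : ℂ) • c) := by
  induction n with
  | zero => rw [pow_zero, Nat.cast_zero, zero_smul]; exact isC1_one X
  | succ n ih => rw [pow_succ, Nat.cast_succ, add_smul, one_smul]; exact isC1_mul ih k

variable {ν : ℕ} {Z : Set (Fin ν → ℂ)} [h : Fact (PV (π₀ (Fin ν)) Z 2)]

instance instAct : IsAct (scl (π₀ (Fin ν))) univ := isAct_scl _

instance instFP : FP (scl (π₀ (Fin ν))) Z := h.out.fp

noncomputable instance instCS : ChartedSpace C2 (SZ Z) := Mf.cs h.out.dim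

instance instMf : IsManifold 𝓘(ℂ, C2) ω (SZ Z) := Mf.isManifold h.out.dim

instance instCpt : CompactSpace (SZ Z) := h.out.compact

theorem pres : Mf.Pres 2 (Quo.mk _ : Z → SZ Z) := Mf.pres h.out.dim

theorem mc : MC (π₀ (Fin ν)) Z := h.out.toMC

/-- **The Lefschetz theorem.** -/
theorem lef (hc : IsConnected Z) {l : H (SZ Z)} (hl : l ∈ Lk (SZ Z) 2)
    (hw : ∀ w ∈ Hb.QT (scl (π₀ (Fin ν))) Z 2 0, JZ Z (l * w) = 0) :
    ∃ M : SB (SZ Z), IsC1 M.φ l := by
  have := Subtype.connectedSpace hc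
  have : ConnectedSpace (SZ Z) := mk_surj.connectedSpace continuous_mk
  obtain ⟨B, hB, -⟩ := (Zc.stLat _ _ _ (Zc.oriZ_qm h.out.qm)).2.2 2 rfl
  have T := Mf.top_qm h.out.qm hB
  letI := TopologicalSpace.metrizableSpaceMetric (SZ Z)
  exact lef0 T hl fun w k => hw w (pres.mem_HT.2 k)

theorem ho_div (i j : Fin ν) {x : SZ Z} (hx : pt x j ≠ 0) : Ho (fun y => pt y i / pt y j) x := by
  obtain ⟨σ, h1, h2, h3⟩ := (pres (Z := Z)).sec x.out
  rw [mk_out] at h1 h2 h3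
  have a : Ho (fun y => σ (chartAt C2 x y)) x :=
    h1.congr (mem_of_superset (chart_target_mem_nhds C2 x) fun z hz =>
      congrArg σ ((chartAt C2 x).right_inv hz).symm)
  refine ((a.apply i).div (a.apply j) (by rwa [h2])).congr (h3.mono fun y ⟨k, e⟩ => ?_)
  obtain ⟨c, hc, e'⟩ := exists_pt mc ⟨_, k⟩
  rw [e] at e'
  simp only [e', Pi.smul_apply, smul_eq_mul, mul_div_mul_left _ _ hc]

theorem ho_lf (x : SZ Z) : ∀ᶠ y in 𝓝 x, Ho (fun z => (fr x z)⁻¹ • pt z) y := by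
  obtain ⟨j, -, b⟩ := ev_fr mc x
  exact b.eventually_nhds.mono fun y k => (Ho.pi fun i =>
    (ho_div i j k.self_of_nhds.1).mul (ho_const _)).congr (k.mono fun _ e => e.2.symm)

variable (Z) in
/-- The hyperplane bundle. -/
noncomputable def O1 : SB (SZ Z) where
  φ := fr
  self := fr_self mc
  ne := fr_ne mc
  hol x := (ho_lf x).mono fun y k => by
    obtain ⟨j, hj⟩ := ne_zero mc (pt_mem y)
    have n : (fr x y)⁻¹ * pt y j ≠ 0 := mul_ne_zero (inv_ne_zero (fr_ne mc x y)) hj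
    refine ((((ho_lf y).self_of_nhds.apply j).div (k.apply j) n)).congr
      ((ev_ne mc hj).mono fun z hz => ?_)
    have := fr_ne mc x z
    have := fr_ne mc y z
    simp only [Pi.smul_apply, smul_eq_mul]
    field_simp

theorem c1_O1 : IsC1 (O1 Z).φ (hZ Z) := isC1_fr mc

theorem pt_sec (j : Fin ν) : (fun y => pt y j) ∈ (O1 Z).Γ := fun x =>
  ((ho_lf x).self_of_nhds.apply j).congr (.of_forall fun _ => (div_eq_inv_mul _ _).symm)

end Vale.Agent.P287T.Gl
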