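import Vale.Agent.P287T.Gl.Lef
import Vale.Agent.P287T.Gl.Gen
import Vale.Agent.P287T.Kx.Ga
import Vale.Agent.P299.H223.FSLocal

/-!
# Line bundles on a projective surface are algebraic
-/

namespace Vale.Agent.P287T.Gl

open Set Function Filter Topology MvPolynomial P291Z P267.FL P269 P269.Holo P269.Mono P269.Tq P287Q
  P287Q.D P287Q.Cub P272.K P299.H223
open scoped ContDiff Manifold

variable {ν : ℕ} {Z : Set (Fin ν → ℂ)} [h : Fact (PV (π₀ (Fin ν)) Z 2)]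

theorem imm {e : Chart 2 (SZ Z)} {y : SZ Z} (he : At e y) {c : SZ Z → ℂ} (hc : ∀ z, c z ≠ 0)
    (hF : AnalyticAt ℂ (fun z => c (e.symm z) • pt (e.symm z)) (e y)) {v : C2} {a : ℂ}
    (hv : fderiv ℂ (fun z => c (e.symm z) • pt (e.symm z)) (e y) v =
      a • c (e.symm (e y)) • pt (e.symm (e y))) : v = 0 := by
  let σ : ℂ × C2 → Sp (scl (π₀ (Fin ν))) Z := fun q => Sp.of _
    (Complex.exp q.1 • c (e.symm q.2) • pt (e.symm q.2))
    (smul_mem mc (Complex.exp_ne_zero _) (smul_mem mc (hc _) (pt_mem _)))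
  have e1 : ∀ q, (σ q).mk = e.symm q.2 := fun q =>
    (mk_smul mc (Complex.exp_ne_zero _) ⟨_, smul_mem mc (hc _) (pt_mem _)⟩).trans
      ((mk_smul mc (hc _) (e.symm q.2).out).trans (mk_out _))
  have d₁ : HasFDerivAt (𝕜 := ℂ) (Prod.fst : ℂ × C2 → ℂ) _ (0, e y) := hasFDerivAt_fst
  have d₂ : HasFDerivAt (𝕜 := ℂ) (Prod.snd : ℂ × C2 → C2) _ (0, e y) := hasFDerivAt_snd
  have d₀ := (HasFDerivAt.comp (f := Prod.fst) _ (Complex.hasDerivAt_exp 0).hasFDerivAt d₁).smul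
    (HasFDerivAt.comp (f := Prod.snd) _ hF.differentiableAt.hasFDerivAt d₂)
  have d : HasFDerivAt (fun q => (σ q).val) _ (0, e y) := d₀
  obtain ⟨p, p1, p2⟩ := Mf.Gd.prj he.1 (x := σ (0, e y)) (by rw [e1, he.left_inv]; exact he.2)
  have e2 : (fun q => p (σ q).val) =ᶠ[𝓝 (0, e y)] Prod.snd := by
    filter_upwards [(Sp.isEmbedding_val.isInducing.continuousAt_iff.2 d.continuousAt).eventually p2,
      continuousAt_snd.eventually he.nhds_target] with q k1 k2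
    rw [k1, e1, e.right_inv k2]
  have e3 := DFunLike.congr_fun ((HasFDerivAt.comp (f := fun q => (σ q).val) _
    p1.differentiableAt.hasFDerivAt d).unique (d₂.congr_of_eventuallyEq e2)) (-a, v)
  simpa [hv] using e3.symm

/-- The Fubini-Study metric. -/
theorem pos_O1 : P281Z.Pos 2 (bd (O1 Z)) := by
  have a : ∀ i (e : Chart 2 (SZ Z)) x, At e x → x ∈ (bd (O1 Z)).U i →
      AnalyticAt ℂ (fun z => (fr i (e.symm z))⁻¹ • pt (e.symm z)) (e x) := fun i e x he hi =>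
    ho_at (f := fun y => (fr i y)⁻¹ • pt y) (Ho.pi fun j => (SB.Sec.hol_div (pt_sec j x) hi
      (fr_ne mc i x)).congr (.of_forall fun _ => div_eq_inv_mul _ _)) he
  have n : ∀ i x : SZ Z, (fr i x)⁻¹ • pt x ≠ 0 := fun i x =>
    smul_ne_zero (inv_ne_zero (fr_ne mc i x)) (ne_iff.2 (ne_zero mc (pt_mem x)))
  refine ⟨fun i y => Real.log (nsq ((fr i y)⁻¹ • pt y)), ⟨fun i e x he hi =>
    smooth_log_nsq (a i e x he hi).contDiffAt (n _ _), fun i j x _ _ => ?_⟩, fun i e x he hi =>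
    fsM_posDef (a i e x he hi).contDiffAt (n _ _) fun v c =>
      imm he (fun z => inv_ne_zero (fr_ne mc i z)) (a i e x he hi)⟩
  have k := div_ne_zero (fr_ne mc j x) (fr_ne mc i x)
  show _ = _ + Real.log (‖fr j x / fr i x‖ ^ 2)
  rw [← Real.log_mul (nsq_pos (n j x)).ne' (pow_ne_zero _ (norm_ne_zero_iff.2 k)), mul_comm,
    ← nsq_smul, smul_smul, div_mul_eq_mul_div, mul_inv_cancel₀ (fr_ne mc j x), one_div]

/-- The factor between a point of the cone and the chosen point. -/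
noncomputable def wt (z : Z) : ℂ := (exists_pt mc z).choose⁻¹

theorem wt_ne (z : Z) : wt z ≠ 0 := inv_ne_zero (exists_pt mc z).choose_spec.1

theorem wt_smul (z : Z) : wt z • pt (Quo.mk _ z : SZ Z) = z.1 :=
  (inv_smul_eq_iff₀ (exists_pt mc z).choose_spec.1).2 (exists_pt mc z).choose_spec.2

/-- Sections of the powers of the hyperplane bundle are rational functions. -/
theorem poly {k : ℕ} {s : SZ Z → ℂ} (hs : s ∈ (O1 Z ^ k).Γ) : ∀ᶠ N in atTop, ∀ i,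
    ∃ G : MvPolynomial (Fin ν) ℂ, G.IsHomogeneous (N + k) ∧
      ∀ z : Z, eval z.1 G = z.1 i ^ N * wt z ^ k * s (Quo.mk _ z) := by
  classical
  let u : (Fin ν → ℂ) → ℂ := fun z =>
    if hz : z ∈ Z then wt ⟨z, hz⟩ ^ k * s (Quo.mk _ ⟨z, hz⟩) else 0
  refine (Kx.gaga (u := u) (k := k) h.out (fun z hz => ?_) fun z hz c hc => ?_).elim
    fun N hN => ?_
  rotate_right
  · refine (eventually_ge_atTop N).mono fun N' hN' i => ?_
    obtain ⟨d, rfl⟩ := Nat.exists_eq_add_of_le' hN'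
    obtain ⟨G, h1, h2⟩ := hN i
    refine ⟨X i ^ d * G, add_assoc d N k ▸ (isHomogeneous_X_pow i d).mul h1, fun z => ?_⟩
    rw [map_mul, map_pow, eval_X, h2 _ z.2, show u z.1 = _ from dif_pos z.2]
    ring
  · let x : SZ Z := Quo.mk _ ⟨z, hz⟩
    obtain ⟨P, p1, p2⟩ := (pres (Z := Z)).prj ⟨z, hz⟩
    obtain ⟨j, j1, j2⟩ := ev_fr mc x
    refine ⟨fun w => (w j / pt x j) ^ k * (s ((chartAt C2 x).symm (P w)) /
      (O1 Z ^ k).φ x ((chartAt C2 x).symm (P w))), ((((ContinuousLinearMap.proj (R := ℂ)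
        (φ := fun _ : Fin ν => ℂ) j).analyticAt z).div analyticAt_const j1).pow k).mul
      (AnalyticAt.comp_of_eq (hs x) p1 p2.self_of_nhds), (ev_sub hz).1 ?_⟩
    filter_upwards [p2, continuous_mk.continuousAt.eventually j2,
      continuous_mk.continuousAt.eventually (chart_source_mem_nhds C2 x)] with w k1 k2 k3
    have e := congrFun k2.2 j
    have n := fr_ne mc x (Quo.mk _ w)
    rw [Pi.smul_apply, smul_eq_mul, div_self k2.1, one_mul, inv_mul_eq_iff_eq_mul₀ n] at e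
    rw [k1, (chartAt C2 x).left_inv k3, show u w.1 = _ from dif_pos w.2, SB.pow_φ,
      ← congrFun (wt_smul w) j, Pi.smul_apply, smul_eq_mul, e, mul_div_assoc,
      mul_div_cancel_right₀ _ j1, mul_pow, mul_assoc]
    exact congrArg _ (mul_div_cancel₀ _ (pow_ne_zero k n)).symm
  · have e := wt_smul ⟨_, smul_mem mc hc hz⟩
    rw [mk_smul mc hc ⟨z, hz⟩] at e
    have e' : wt ⟨_, smul_mem mc hc hz⟩ = c * wt ⟨z, hz⟩ :=
      smul_left_injective ℂ (ne_iff.2 (ne_zero mc (pt_mem (Quo.mk _ ⟨z, hz⟩ : SZ Z))))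
        (e.trans (by simp only [mul_smul, wt_smul]))
    rw [show u (c • z) = _ from dif_pos (smul_mem mc hc hz), show u z = _ from dif_pos hz, e',
      mk_smul mc hc ⟨z, hz⟩, mul_pow, mul_assoc]

omit h in
/-- **GAGA-L.** -/
theorem stGl : StGl := fun ν Z h hc l hl hw => by
  have := Fact.mk h
  obtain ⟨M, hM⟩ := lef hc hl hw
  have g : ∀ x, ∃ s ∈ (O1 Z).Γ, s x ≠ 0 := fun x =>
    let ⟨j, hj⟩ := ne_zero mc (pt_mem x); ⟨_, pt_sec j, hj⟩
  obtain ⟨k, b, t, t1, t2⟩ := gen M pos_O1 g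
  obtain ⟨k', a, s, s1, s2⟩ := gen M⁻¹ pos_O1 g
  have e : M⁻¹ * O1 Z ^ k' * (M * O1 Z ^ k) = O1 Z ^ (k' + k) := by
    rw [mul_mul_mul_comm, inv_mul_cancel, one_mul, pow_add]
  obtain ⟨N, hN⟩ := (eventually_all.2 fun i => eventually_all.2 fun j =>
    poly (e ▸ SB.mul_mem (s1 i) (t1 j))).exists
  choose G G1 G2 using hN
  let q := (finProdFinEquiv (m := a) (n := ν)).symm
  have key : ∀ z : Z, ∃ σ : Fin (a * ν) → ℂ, σ ≠ 0 ∧
      ∀ p j, eval z.1 (G (q p).1 j (q p).2) = σ p * t j (Quo.mk _ z) := fun z => by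
    obtain ⟨i, hi⟩ := s2 (Quo.mk _ z)
    obtain ⟨r, hr⟩ := ne_zero mc z.2
    refine ⟨fun p => z.1 (q p).2 ^ N * wt z ^ (k' + k) * s (q p).1 (Quo.mk _ z),
      ne_iff.2 ⟨q.symm (i, r), ?_⟩, fun p j => (G2 _ _ _ z).trans (mul_assoc _ _ _).symm⟩
    simp only [Equiv.apply_symm_apply]
    exact mul_ne_zero (mul_ne_zero (pow_ne_zero _ hr) (pow_ne_zero _ (wt_ne z))) hi
  refine ⟨a * ν, b, N + (k' + k), k, Matrix.of fun p j => G (q p).1 j (q p).2,
    ⟨fun _ _ => G1 _ _ _, fun z hz => ?_⟩, fun Y f E E' A hE hE' hA hr =>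
      cls_gen (isC1_mul hM (isC1_pow c1_O1 k)) (fun x => SB.ne _ x x) t
        (fun j x => Ho.continuousAt (t1 j x)) t2 Y f E E' A hE hE' hA fun y u => ?_⟩
  · obtain ⟨σ, h1, h2⟩ := key ⟨z, hz⟩
    exact ⟨σ, _, h1, ne_iff.2 (t2 _), h2⟩
  · obtain ⟨z, e1, e2⟩ := hr y
    obtain ⟨σ, h1, h2⟩ := key z
    obtain ⟨p, hp⟩ := ne_iff.1 h1
    simp only [e2, e1, Matrix.of_apply, h2, mul_assoc, ← Finset.mul_sum]
    exact ⟨fun k => (mul_eq_zero.1 (k p)).resolve_left hp, fun k _ => by rw [k, mul_zero]⟩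

end Vale.Agent.P287T.Gl
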