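import Vale.Agent.P287T.Gl.Lef
import Vale.Agent.P287T.Kx.Ga

/-!
# Line bundles are algebraic, if their high twists are generated by sections
-/

namespace Vale.Agent.P287T.Gl

open Set Function Filter Topology MvPolynomial P291Z P267.FL P269 P269.Holo P269.Mono P269.Tq P287Q
  P287Q.D P287Q.Cub

/-- high twists of line bundles are generated by their sections -/
def Gen : Prop := ∀ (ν : ℕ) (Z : Set (Fin ν → ℂ)) [Fact (PV (π₀ (Fin ν)) Z 2)], IsConnected Z →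
  ∀ M : SB (SZ Z), ∃ (k b : ℕ) (s : Fin b → SZ Z → ℂ), (∀ j, s j ∈ (M * O1 Z ^ k).Γ) ∧
    ∀ x, ∃ j, s j x ≠ 0

variable {ν : ℕ} {Z : Set (Fin ν → ℂ)} [h : Fact (PV (π₀ (Fin ν)) Z 2)]

theorem holOn_mk {g : SZ Z → ℂ} {u : (Fin ν → ℂ) → ℂ} (z : Z) (hg : Ho g (Quo.mk _ z))
    (e : ∀ w : Z, u w.1 = g (Quo.mk _ w)) : HolOn Z u z.1 := by
  obtain ⟨p, p1, p2⟩ := (pres (Z := Z)).prj z
  refine ⟨_, AnalyticAt.comp_of_eq hg p1 p2.self_of_nhds, (ev_sub z.2 (p := fun s =>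
    u s = _)).1 ?_⟩
  filter_upwards [p2, (pres (Z := Z)).cont.continuousAt.eventually
    (chart_source_mem_nhds C2 (Quo.mk _ z : SZ Z))] with w a b
  rw [e, comp_apply, a, (chartAt C2 _).left_inv b]

/-- the scale of a point of the cone -/
theorem exists_sc : ∃ c : Z → ℂ, ∀ z, c z ≠ 0 ∧ z.1 = c z • pt (Quo.mk _ z : SZ Z) := by
  choose c h1 h2 using exists_pt (mc (Z := Z))
  exact ⟨fun z => (c z)⁻¹, fun z => ⟨inv_ne_zero (h1 z), by rw [h2, inv_smul_smul₀ (h1 z)]⟩⟩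

/-- Sections of `𝒪(n)` are given by forms. -/
theorem sec_poly {c : Z → ℂ} (hc : ∀ z, c z ≠ 0 ∧ z.1 = c z • pt (Quo.mk _ z : SZ Z)) {n : ℕ}
    {σ : SZ Z → ℂ} (hσ : σ ∈ (O1 Z ^ n).Γ) : ∃ N₀ : ℕ, ∀ N ≥ N₀, ∀ i,
      ∃ G : MvPolynomial (Fin ν) ℂ, G.IsHomogeneous (N + n) ∧
        ∀ z : Z, eval z.1 G = z.1 i ^ N * (c z ^ n * σ (Quo.mk _ z)) := by
  classical
  let u : (Fin ν → ℂ) → ℂ := fun z => if a : z ∈ Z then c ⟨z, a⟩ ^ n * σ (Quo.mk _ ⟨z, a⟩) else 0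
  have e : ∀ z : Z, u z.1 = c z ^ n * σ (Quo.mk _ z) := fun z => dif_pos z.2
  have co : ∀ (z : Z) j, z.1 j = c z * pt (Quo.mk _ z : SZ Z) j := fun z j => congrFun (hc z).2 j
  obtain ⟨N₀, k⟩ := Kx.gaga (k := n) (u := u) h.out (fun z a => by
    obtain ⟨j, b1, b2⟩ := exists_ix mc (Quo.mk _ ⟨z, a⟩ : SZ Z)
    let g : (Fin ν → ℂ) → ℂ := fun y => if a' : y ∈ Z then σ (Quo.mk _ ⟨y, a'⟩) /
      (O1 Z ^ n).φ (Quo.mk _ ⟨z, a⟩) (Quo.mk _ ⟨y, a'⟩) else 0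
    have h1 : HolOn Z g z := holOn_mk ⟨z, a⟩ (hσ _) fun w => dif_pos w.2
    have z0 : z j ≠ 0 := (co ⟨z, a⟩ j).trans_ne (mul_ne_zero (hc _).1 b1)
    refine (((HolOn.of_an (S := Z) analyticAt_id).prod h1).comp_an a
      (G := fun x => (x.1 j / pt (Quo.mk _ ⟨z, a⟩ : SZ Z) j) ^ n * x.2)
      ((((((ContinuousLinearMap.proj (R := ℂ) (φ := fun _ : Fin ν => ℂ) j).analyticAt _).comp
        analyticAt_fst).div analyticAt_const b1).pow n).mul analyticAt_snd)).congr ?_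
    filter_upwards [(continuous_apply j).continuousAt.eventually_ne z0] with y y0 y1
    have y2 := co ⟨y, y1⟩ j
    have y3 := right_ne_zero_of_mul (y2.symm.trans_ne y0)
    refine (e ⟨y, y1⟩).trans ?_
    simp only [g, dif_pos y1, id, SB.pow_φ, O1, fr, b2, if_neg y3]
    rw [show y j = _ from y2]
    simp only [div_pow, mul_pow]
    field_simp) fun z a t t0 => by
      obtain ⟨j, b⟩ := ne_zero mc (pt_mem (Quo.mk _ ⟨z, a⟩ : SZ Z))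
      have k1 := co ⟨_, smul_mem mc t0 a⟩ j
      have k2 := mk_smul mc t0 ⟨z, a⟩
      rw [k2] at k1
      replace k1 := (mul_assoc _ _ _).trans ((congrArg (t * ·) (co ⟨z, a⟩ j)).symm.trans k1)
      rw [e ⟨_, smul_mem mc t0 a⟩, e ⟨z, a⟩, k2, ← mul_right_cancel₀ b k1, mul_pow, mul_assoc]
  refine ⟨N₀, fun N hN i => ?_⟩
  obtain ⟨d, rfl⟩ := Nat.exists_eq_add_of_le' hN
  obtain ⟨G, g1, g2⟩ := k i
  refine ⟨X i ^ d * G, ?_, fun z => ?_⟩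
  · simpa only [one_mul, add_assoc] using ((isHomogeneous_X ℂ i).pow d).mul g1
  · rw [map_mul, map_pow, eval_X, g2 _ z.2, e, pow_add, mul_assoc]

omit h in
/-- **GAGA-L** -/
theorem stGl_of (hG : Gen) : StGl := fun ν Z h hc l hl hw => by
  have : Fact (PV (π₀ (Fin ν)) Z 2) := ⟨h⟩
  have : Nice (SZ Z) := inferInstance
  obtain ⟨M, hM⟩ := lef hc hl hw
  obtain ⟨k, b, τ, t1, t2⟩ := hG ν Z hc M
  obtain ⟨k', a, s, s1, s2⟩ := hG ν Z hc M⁻¹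
  obtain ⟨c, c1⟩ := exists_sc (Z := Z)
  have e : M⁻¹ * O1 Z ^ k' * (M * O1 Z ^ k) = O1 Z ^ (k' + k) := by
    rw [mul_mul_mul_comm, inv_mul_cancel, one_mul, pow_add]
  choose N hN using fun p : Fin a × Fin b => sec_poly c1 (e ▸ SB.mul_mem (s1 p.1) (t1 p.2))
  choose G g1 g2 using fun p => hN p _ (Finset.single_le_sum (fun _ _ => Nat.zero_le _)
    (Finset.mem_univ p))
  let S : Z → Fin (a * ν) → ℂ := fun z i => z.1 (finProdFinEquiv.symm i).2 ^ (∑ p, N p) *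
    (c z ^ (k' + k) * s (finProdFinEquiv.symm i).1 (Quo.mk _ z))
  have S0 : ∀ z, ∃ i, S z i ≠ 0 := fun z => by
    obtain ⟨i, b1⟩ := s2 (Quo.mk _ z)
    obtain ⟨j, b2⟩ := ne_zero mc z.2
    refine ⟨finProdFinEquiv (i, j), ?_⟩
    simp only [S, Equiv.symm_apply_apply]
    exact mul_ne_zero (pow_ne_zero _ b2) (mul_ne_zero (pow_ne_zero _ (c1 z).1) b1)
  have ev : ∀ (z : Z) i j, eval z.1 (G ((finProdFinEquiv.symm i).1, j) (finProdFinEquiv.symm i).2) =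
      S z i * τ j (Quo.mk _ z) := fun z i j => by
    simp only [g2, S, Pi.mul_apply, mul_assoc]
  refine ⟨a * ν, b, _, k, .of fun i j => G ((finProdFinEquiv.symm i).1, j)
    (finProdFinEquiv.symm i).2, ⟨fun i j => g1 _ _, fun z hz => ⟨S ⟨z, hz⟩,
      fun j => τ j (Quo.mk _ ⟨z, hz⟩), ne_iff.2 (S0 _), ne_iff.2 (t2 _), ev ⟨z, hz⟩⟩⟩,
    fun Y f E E' A hE hE' hA hr => cls_gen (isC1_mul hM (isC1_pow c1_O1 k))
      (fun x => (M * O1 Z ^ k).ne x x) τ (fun j x => Ho.continuousAt (t1 j x)) t2 Y f E E' A hE hE'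
      hA fun t u => ?_⟩
  obtain ⟨z, e1, e2⟩ := hr t
  obtain ⟨i, b1⟩ := S0 z
  rw [e2, e1]
  simp only [Matrix.of_apply, ev, mul_assoc, ← Finset.mul_sum]
  exact ⟨fun k => (mul_eq_zero.1 (k i)).resolve_left b1, fun k _ => mul_eq_zero_of_right _ k⟩

end Vale.Agent.P287T.Gl
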